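import Vale.Agent.P113.Defs

/-! The force compiler: a fixed list of periodic terms and one transient term. -/

namespace Vale.Agent.P113.H772
open Vale.Agent.P113

/-- The bump `s ↦ ρ^{(j)}(10 s - 2)`, supported in `[1/10, 3/10]`. -/
def trBump (j : ℕ) : Bump := ⟨Sum.inl j, 0, (10, 0), (2, 0)⟩

/-- The transient term `κ⁻¹ (N / D) ρ^{(j)}(10 t - 2)`. -/
def trTerm (j : ℕ) (N : ℤ) (D : ℕ) : Term where
  q := (N, D - 1)
  m := 0
  n := -1
  logs := []
  time := [(false, trBump j)]
  space := fun _ => []

theorem trTerm_valid (j : ℕ) (N : ℤ) (D : ℕ) : (trTerm j N D).Valid := by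
  refine ⟨by simp [trTerm], ?_, by simp [trTerm]⟩
  intro g hg
  simp only [trTerm, List.mem_singleton] at hg
  subst hg
  refine ⟨by norm_num [trBump, ratVal], ?_⟩
  intro l hl
  simp [trBump] at hl

theorem trTerm_isPeriodic (j : ℕ) (N : ℤ) (D : ℕ) : (trTerm j N D).isPeriodic = false := by
  simp [trTerm, Term.isPeriodic]

theorem trTerm_val (j : ℕ) (N : ℤ) (D : ℕ) (hD : 0 < D) (ν t : ℝ) (x : Fin 3 → ℝ) :
    (trTerm j N D).val ν t x = (N / D : ℝ) * kappa⁻¹ * iteratedDeriv j rho (10 * t - 2) := by
  have h1 : ((D - 1 : ℕ) : ℝ) + 1 = D := by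
    have : ((D - 1 : ℕ) : ℝ) = (D : ℝ) - 1 := by
      rw [Nat.cast_sub hD]; simp
    rw [this]; ring
  have h2 : (trTerm j N D).coeff ν = (N / D : ℝ) * kappa⁻¹ := by
    simp only [Term.coeff, trTerm, ratVal, List.map_nil, List.prod_nil, pow_zero, zpow_neg,
      zpow_one, mul_one]
    push_cast
    rw [h1]
  have h3 : (trTerm j N D).timeVal t = iteratedDeriv j rho (10 * t - 2) := by
    simp [Term.timeVal, trTerm, trBump, ratVal, Bump.val]
  have h4 : (trTerm j N D).spaceVal x = 1 := by
    simp [Term.spaceVal, trTerm]
  rw [Term.val, h2, h3, h4, mul_one]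

/-- `m ↦` the transient term for the rational number `N / (d K^m)`. -/
theorem primrec_trTerm (j : ℕ) (N : ℤ) (d K : ℕ) :
    Primrec fun m : ℕ => trTerm j N (d * K ^ m) := by
  have hK : Primrec fun m : ℕ => K ^ m := by
    have : Primrec fun m : ℕ => Nat.rec (motive := fun _ => ℕ) 1 (fun _ r => r * K) m :=
      Primrec.nat_rec₁ 1 (Primrec.nat_mul.comp Primrec.snd (Primrec.const K)).to₂
    refine this.of_eq fun m => ?_
    induction m with
    | zero => simp
    | succ m ih => simp only [pow_succ, ← ih]
  have hden : Primrec fun m : ℕ => d * K ^ m - 1 :=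
    Primrec.nat_sub.comp (Primrec.nat_mul.comp (Primrec.const d) hK) (Primrec.const 1)
  have hT : Primrec fun m : ℕ => Term.equiv (trTerm j N (d * K ^ m)) :=
    Primrec.pair (Primrec.pair (Primrec.const N) hden) (Primrec.const
      ((0, -1, [], [(false, trBump j)], fun _ => []) :
        ℕ × ℤ × List (ℤ × ℕ) × List (Bool × Bump) × (Fin 3 → List Bump)))
  exact (Primrec.of_equiv_iff Term.equiv).1 hT

/-- The force compiler built from a fixed list `L` of periodic terms and a transient term `T m`
in the second component, where `m` is the code of the pair (machine, input). -/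
def compiler (L : Fin 3 → List Term) (T : ℕ → Term) (z : MachineCode × List ℕ) (i : Fin 3) :
    List Term :=
  if i = 1 then T (Encodable.encode z) :: L 1 else L i

theorem force_compiler (L : Fin 3 → List Term) (T : ℕ → Term) (z : MachineCode × List ℕ)
    (ν t : ℝ) (x : Fin 3 → ℝ) (i : Fin 3) :
    force (compiler L T z) ν t x i =
      evalTerms (L i) ν t x + if i = 1 then (T (Encodable.encode z)).val ν t x else 0 := by
  by_cases hi : i = 1
  · subst hi
    simp [force, compiler, evalTerms, add_comm]
  · simp [force, compiler, hi]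

theorem isForceCompiler (L : Fin 3 → List Term)
    (hL : ∀ i, ∀ τ ∈ L i, τ.Valid ∧ τ.isPeriodic = true) (j : ℕ) (N : ℤ) (d K : ℕ) (hd : 0 < d)
    (hK : 0 < K) (hrho : ∀ s : ℝ, 1 ≤ s → iteratedDeriv j rho s = 0) :
    IsForceCompiler (compiler L fun m : ℕ => trTerm j N (d * K ^ m)) where
  computable i := by
    by_cases hi : i = 1
    · subst hi
      simp only [compiler, if_true]
      exact (Primrec.list_cons.comp ((primrec_trTerm j N d K).comp Primrec.encode)
        (Primrec.const (L 1))).to_comp
    · simp only [compiler, if_neg hi]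
      exact Computable.const _
  valid M w i τ hτ := by
    by_cases hi : i = 1
    · subst hi
      simp only [compiler, if_true, List.mem_cons] at hτ
      rcases hτ with rfl | hτ
      · exact trTerm_valid _ _ _
      · exact (hL _ _ hτ).1
    · simp only [compiler, if_neg hi] at hτ
      exact (hL _ _ hτ).1
  transient := by
    refine ⟨1 / 2, ?_⟩
    intro M w i τ hτ hper ν t x ht
    by_cases hi : i = 1
    · subst hi
      simp only [compiler, if_true, List.mem_cons] at hτ
      rcases hτ with rfl | hτ
      · rw [trTerm_val _ _ _ (by positivity), hrho _ (by linarith), mul_zero]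
      · rw [(hL _ _ hτ).2] at hper
        exact absurd hper (by simp)
    · simp only [compiler, if_neg hi] at hτ
      rw [(hL _ _ hτ).2] at hper
      exact absurd hper (by simp)
  periodic M w w' i := by
    by_cases hi : i = 1
    · subst hi
      simp only [compiler, if_true]
      rw [List.filter_cons_of_neg, List.filter_cons_of_neg]
      · simp [trTerm_isPeriodic]
      · simp [trTerm_isPeriodic]
    · simp only [compiler, if_neg hi]

end Vale.Agent.P113.H772
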