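import Vale.Agent.P113.Defs
import Vale.Agent.P113.Blocks
import Vale.Agent.P113.H772.Compiler
import Vale.Agent.P113.H936.Classical
import Vale.Agent.P113.H875.Coding

/-! Assembly of the final theorem from the flow theorem, the universal block system and the
recursive enumerability of halting. -/

open MeasureTheory
open scoped ContDiff

namespace Vale.Agent.P113.H772
open Vale.Agent.P113

/-- The corners of the open box `O`. -/
def lo : Fin 3 → ℚ := ![0, 0, 5 / 8]

/-- The corners of the open box `O`. -/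
def hi : Fin 3 → ℚ := ![1, 1, 7 / 8]

/-- What the flow theorem has to provide for a block system `S`: periodic force terms `F` such that
for every viscosity `ν`, start `(x₀, A, 0)` and displacement `c`, the force with terms `F` and
transient part `c κ⁻¹ 100 ρ'(10 t - 2) e₂` has a smooth solution whose trajectory from the start
meets the box `O` if the orbit of `(x₀, A + c)` under `S` hits a flag, and does not if the orbit
runs forever. -/
def Core (S : BlockSystem) : Prop :=
  ∃ F : Fin 3 → List Term, (∀ i, ∀ τ ∈ F i, τ.Valid ∧ τ.isPeriodic = true) ∧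
    ∀ ν : ℝ, 0 < ν → ∀ x₀ A c : ℝ, 0 < x₀ → x₀ < 1 → 0 < A + c → A + c < 1 →
      ∃ u : ℝ → (Fin 3 → ℝ) → Fin 3 → ℝ,
        ContDiff ℝ ∞ (fun z : ℝ × (Fin 3 → ℝ) => u z.1 z.2) ∧
        (∀ T, 0 < T → IsClassicalSolution ν T
          (fun t x i => evalTerms (F i) ν t x +
            if i = 1 then c * (kappa⁻¹ * 100 * iteratedDeriv 1 rho (10 * t - 2)) else 0)
          u (fun _ _ => 0)) ∧
        ∃ X : ℝ → Fin 3 → ℝ, IsTrajectory u ![x₀, A, 0] X ∧
          (∀ Y, IsTrajectory u ![x₀, A, 0] Y → ∀ t, 0 ≤ t → Y t = X t) ∧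
          (S.HitsFlag (x₀, A + c) → ∃ t, 0 ≤ t ∧ InBox lo hi (X t)) ∧
          (S.RunsForever (x₀, A + c) → ∀ t, 0 ≤ t → ¬ InBox lo hi (X t))

theorem rePred_decode (p : MachineCode × List ℕ → Prop) (hp : REPred p) :
    REPred fun m : ℕ => ∃ z, Encodable.decode (α := MachineCode × List ℕ) m = some z ∧ p z := by
  have h1 : Partrec fun m : ℕ => ((Encodable.decode (α := MachineCode × List ℕ) m : Option _) :
      Part (MachineCode × List ℕ)) := Computable.decode.ofOption
  have h2 : Partrec fun m : ℕ =>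
      ((Encodable.decode (α := MachineCode × List ℕ) m : Option _) : Part _).bind
        fun z => Part.assert (p z) fun _ => Part.some () :=
    h1.bind (hp.comp Computable.snd).to₂
  refine h2.dom_re.of_eq fun m => ?_
  cases hm : Encodable.decode (α := MachineCode × List ℕ) m with
  | none => simp
  | some z =>
    have : (Part.assert (p z) fun _ => Part.some ()).Dom ↔ p z :=
      ⟨fun h => h.1, fun h => ⟨h, trivial⟩⟩
    simpa using this

/-- The statement of the final theorem. -/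
def Main : Prop :=
  ∃ (a lo hi : Fin 3 → ℚ) (C : MachineCode × List ℕ → Fin 3 → List Term),
    (∀ i, lo i < hi i) ∧ IsForceCompiler C ∧
    ∀ ν : ℝ, 0 < ν → ∀ (M : Machine) (w : List (Fin (M.k + 1))),
      ∃ (u : ℝ → (Fin 3 → ℝ) → Fin 3 → ℝ) (p : ℝ → (Fin 3 → ℝ) → ℝ),
        ContDiff ℝ ∞ (fun z : ℝ × (Fin 3 → ℝ) => u z.1 z.2) ∧
        ContDiff ℝ ∞ (fun z : ℝ × (Fin 3 → ℝ) => p z.1 z.2) ∧
        (∀ T, 0 < T → IsClassicalSolution ν T (force (C (M.code, wordCode w)) ν) u p) ∧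
        (∀ T, 0 < T → ∀ v q,
          IsClassicalSolution ν T (force (C (M.code, wordCode w)) ν) v q →
          ∀ t ∈ Set.Icc 0 T, v t = u t ∧ q t = p t) ∧
        ∃ X : ℝ → Fin 3 → ℝ, IsTrajectory u (fun i => a i) X ∧
          (∀ Y, IsTrajectory u (fun i => a i) Y → ∀ t, 0 ≤ t → Y t = X t) ∧
          ((∃ t, 0 ≤ t ∧ InBox lo hi (X t)) ↔ M.HaltsOn w)

theorem main_of (hcore : ∀ S, Core S)
    (huniv : ∀ p : ℕ → Prop, REPred p → ∃ (S : BlockSystem) (x0 A B : ℚ) (K : ℕ), 2 ≤ K ∧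
      (∀ m : ℕ, 0 < x0 ∧ x0 < 1 ∧ 0 < A + B / (K : ℚ) ^ m ∧ A + B / (K : ℚ) ^ m < 1) ∧
      ∀ m : ℕ, (p m → S.HitsFlag (x0, ((A + B / (K : ℚ) ^ m : ℚ) : ℝ))) ∧
        (¬ p m → S.RunsForever (x0, ((A + B / (K : ℚ) ^ m : ℚ) : ℝ))))
    (hhalt : ∃ p : MachineCode × List ℕ → Prop, REPred p ∧
      ∀ (M : Machine) (w : List (Fin (M.k + 1))), p (M.code, wordCode w) ↔ M.HaltsOn w)
    (hrho : ∀ s : ℝ, 1 ≤ s → iteratedDeriv 1 rho s = 0) : Main := by
  obtain ⟨p, hp, hpM⟩ := hhalt
  obtain ⟨S, x0, A, B, K, hK, hbd, hrun⟩ := huniv _ (rePred_decode p hp)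
  obtain ⟨F, hF, hflow⟩ := hcore S
  have hKpos : 0 < K := by omega
  refine ⟨![x0, A, 0], lo, hi, compiler F fun m => trTerm 1 (100 * B.num) (B.den * K ^ m), ?_,
    isForceCompiler F hF 1 _ _ K B.den_pos hKpos hrho, ?_⟩
  · intro i
    fin_cases i <;> norm_num [lo, hi]
  intro ν hν M w
  set m : ℕ := Encodable.encode (M.code, wordCode w) with hm
  have hpm : (∃ z, Encodable.decode (α := MachineCode × List ℕ) m = some z ∧ p z) ↔
      M.HaltsOn w := by
    rw [hm, Encodable.encodek]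
    constructor
    · rintro ⟨z, hz, h⟩
      obtain rfl := Option.some.inj hz
      exact (hpM M w).1 h
    · intro h
      exact ⟨_, rfl, (hpM M w).2 h⟩
  obtain ⟨h1, h2, h3, h4⟩ := hbd m
  have e : (((A + B / (K : ℚ) ^ m : ℚ)) : ℝ) = (A : ℝ) + (B : ℝ) / (K : ℝ) ^ m := by push_cast; rfl
  obtain ⟨u, hu, hsol, X, hX, hXu, hhit, hnot⟩ := hflow ν hν (x0 : ℝ) (A : ℝ)
    ((B : ℝ) / (K : ℝ) ^ m) (by exact_mod_cast h1) (by exact_mod_cast h2)
    (by rw [← e]; exact_mod_cast h3) (by rw [← e]; exact_mod_cast h4)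
  have hforce : force (compiler F (fun m => trTerm 1 (100 * B.num) (B.den * K ^ m))
      (M.code, wordCode w)) ν = fun t x i => evalTerms (F i) ν t x +
        if i = 1 then (B : ℝ) / (K : ℝ) ^ m *
          (kappa⁻¹ * 100 * iteratedDeriv 1 rho (10 * t - 2)) else 0 := by
    funext t x i
    rw [force_compiler, ← hm, trTerm_val _ _ _ (Nat.mul_pos B.den_pos (pow_pos hKpos m))]
    congr 1
    split_ifs
    · have hB : (B : ℝ) = (B.num : ℝ) / (B.den : ℝ) := by
        rw [Rat.cast_def]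
      have hd : (B.den : ℝ) ≠ 0 := by exact_mod_cast B.den_nz
      have hk : (K : ℝ) ^ m ≠ 0 := pow_ne_zero _ (by exact_mod_cast hKpos.ne')
      rw [hB]
      push_cast
      field_simp
    · rfl
  have ha : (fun i => ((![x0, A, 0] : Fin 3 → ℚ) i : ℝ)) = ![(x0 : ℝ), (A : ℝ), 0] := by
    funext i
    fin_cases i <;> simp
  refine ⟨u, fun _ _ => 0, hu, contDiff_const, ?_, ?_, X, ?_, ?_, ?_⟩
  · intro T hT
    rw [hforce]
    exact hsol T hT
  · intro T hT v q hv t ht
    rw [hforce] at hv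
    have := classical_unique ν T hν hT _ u v _ q (hsol T hT) hv t ht
    exact ⟨funext fun x => (this x).1, funext fun x => (this x).2⟩
  · rw [ha]; exact hX
  · rw [ha]; exact hXu
  · rw [← hpm]
    constructor
    · rintro ⟨t, ht, hbox⟩
      by_contra hcon
      refine hnot ?_ t ht hbox
      have := (hrun m).2 hcon
      rwa [e] at this
    · intro h
      refine hhit ?_
      have := (hrun m).1 h
      rwa [e] at this

end Vale.Agent.P113.H772
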