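import Vale.Agent.P113.Defs

/-! Smooth divergence free fields without nonlinear term are classical solutions. -/

open MeasureTheory
open scoped ContDiff

namespace Vale.Agent.P113.H772
open Vale.Agent.P113

/-- space derivative of a function of `(t, x)` -/
noncomputable def dX (j : Fin 3) (G : ℝ × (Fin 3 → ℝ) → ℝ) (z : ℝ × (Fin 3 → ℝ)) : ℝ :=
  fderiv ℝ G z (0, Pi.single j 1)

/-- time derivative of a function of `(t, x)` -/
noncomputable def dT (G : ℝ × (Fin 3 → ℝ) → ℝ) (z : ℝ × (Fin 3 → ℝ)) : ℝ :=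
  fderiv ℝ G z (1, 0)

theorem dX_contDiff (j : Fin 3) {G : ℝ × (Fin 3 → ℝ) → ℝ} (hG : ContDiff ℝ ∞ G) :
    ContDiff ℝ ∞ (dX j G) :=
  (hG.fderiv_right (m := ∞) (by simp)).clm_apply contDiff_const

theorem dT_contDiff {G : ℝ × (Fin 3 → ℝ) → ℝ} (hG : ContDiff ℝ ∞ G) :
    ContDiff ℝ ∞ (dT G) :=
  (hG.fderiv_right (m := ∞) (by simp)).clm_apply contDiff_const

theorem hasLineDerivAt_x (j : Fin 3) {G : ℝ × (Fin 3 → ℝ) → ℝ} (hG : ContDiff ℝ ∞ G) (t : ℝ)
    (x : Fin 3 → ℝ) :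
    HasLineDerivAt ℝ (fun y => G (t, y)) (dX j G (t, x)) x (Pi.single j 1) := by
  have h1 : HasFDerivAt G (fderiv ℝ G (t, x)) (t, x) :=
    ((hG.differentiable (by simp)) (t, x)).hasFDerivAt
  have h2 : HasFDerivAt (fun y : Fin 3 → ℝ => ((t, y) : ℝ × (Fin 3 → ℝ)))
      (ContinuousLinearMap.inr ℝ ℝ (Fin 3 → ℝ)) x := hasFDerivAt_prodMk_right t x
  have h3 := (h1.comp x h2).hasLineDerivAt (Pi.single j 1)
  simpa [dX, Function.comp_def] using h3

theorem pd_eq (j : Fin 3) {G : ℝ × (Fin 3 → ℝ) → ℝ} (hG : ContDiff ℝ ∞ G) (t : ℝ) :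
    pd j (fun y => G (t, y)) = fun x => dX j G (t, x) := by
  funext x
  exact (hasLineDerivAt_x j hG t x).lineDeriv

theorem hasPd (j : Fin 3) {G : ℝ × (Fin 3 → ℝ) → ℝ} (hG : ContDiff ℝ ∞ G) (t : ℝ) :
    HasPd j (fun y => G (t, y)) := fun x => (hasLineDerivAt_x j hG t x).lineDifferentiableAt

theorem hasDerivAt_t {G : ℝ × (Fin 3 → ℝ) → ℝ} (hG : ContDiff ℝ ∞ G) (t : ℝ) (x : Fin 3 → ℝ) :
    HasDerivAt (fun s => G (s, x)) (dT G (t, x)) t := by
  have h1 : HasFDerivAt G (fderiv ℝ G (t, x)) (t, x) :=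
    ((hG.differentiable (by simp)) (t, x)).hasFDerivAt
  have h2 : HasFDerivAt (fun s : ℝ => ((s, x) : ℝ × (Fin 3 → ℝ)))
      (ContinuousLinearMap.inl ℝ ℝ (Fin 3 → ℝ)) t := hasFDerivAt_prodMk_left t x
  have h3 := (h1.comp t h2).hasDerivAt
  simpa [dT, Function.comp_def] using h3

theorem hasLineDerivAt_zero (x : Fin 3 → ℝ) (v : Fin 3 → ℝ) :
    HasLineDerivAt ℝ (fun _ : Fin 3 → ℝ => (0 : ℝ)) 0 x v := by
  simpa using (hasFDerivAt_const (𝕜 := ℝ) (0 : ℝ) x).hasLineDerivAt v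

theorem classical_of_smooth (ν : ℝ) (f u : ℝ → (Fin 3 → ℝ) → Fin 3 → ℝ)
    (hu : ∀ i, ContDiff ℝ ∞ fun z : ℝ × (Fin 3 → ℝ) => u z.1 z.2 i)
    (hper : ∀ t i, IsPer fun x => u t x i)
    (h0 : ∀ x i, u 0 x i = 0)
    (hdiv : ∀ t x, ∑ j, pd j (fun y => u t y j) x = 0)
    (hnl : ∀ t x i, ∑ j, u t x j * pd j (fun y => u t y i) x = 0)
    (hf : ∀ t x i, f t x i = deriv (fun s => u s x i) t -
      ν * ∑ j, pd j (pd j fun y => u t y i) x) (T : ℝ) (hT : 0 < T) :
    IsClassicalSolution ν T f u (fun _ _ => 0) := by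
  set G : Fin 3 → ℝ × (Fin 3 → ℝ) → ℝ := fun i z => u z.1 z.2 i with hGdef
  have hG : ∀ i, ContDiff ℝ ∞ (G i) := hu
  have hdt : ∀ i x, ∀ t ∈ Set.Icc (0 : ℝ) T,
      derivWithin (fun s => u s x i) (Set.Icc 0 T) t = dT (G i) (t, x) := by
    intro i x t ht
    exact (hasDerivAt_t (hG i) t x).hasDerivWithinAt.derivWithin
      (uniqueDiffOn_Icc hT t ht)
  have hz : ∀ j : Fin 3, pd j (fun _ : Fin 3 → ℝ => (0 : ℝ)) = fun _ => 0 := by
    intro j
    funext x
    exact (hasLineDerivAt_zero x (Pi.single j 1)).lineDeriv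
  have hpd : ∀ i j t, pd j (fun y => u t y i) = fun x => dX j (G i) (t, x) := fun i j t =>
    pd_eq j (hG i) t
  have hpd2 : ∀ i j k t, pd k (pd j fun y => u t y i) = fun x => dX k (dX j (G i)) (t, x) := by
    intro i j k t
    rw [hpd i j t]
    exact pd_eq k (dX_contDiff j (hG i)) t
  refine
    { per_u := fun t _ i => hper t i
      per_p := fun t _ x k => rfl
      cont_u := fun i => (hG i).continuous.continuousOn
      diff_t := fun i x t _ =>
        (hasDerivAt_t (hG i) t x).differentiableAt.differentiableWithinAt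
      cont_t := ?_
      diff_x := fun t _ i j => hasPd j (hG i) t
      cont_x := ?_
      diff_xx := ?_
      cont_xx := ?_
      cont_p := continuousOn_const
      diff_p := fun t _ j x => (hasLineDerivAt_zero x _).lineDifferentiableAt
      cont_dp := ?_
      mean_p := fun t _ => by show ∫ x in Set.Icc (0 : Fin 3 → ℝ) 1, (0 : ℝ) = 0; simp
      div_free := fun t _ x => hdiv t x
      momentum := ?_
      init := h0 }
  · intro i
    refine ((dT_contDiff (hG i)).continuous.continuousOn (s := Set.Icc 0 T ×ˢ Set.univ)).congr ?_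
    rintro ⟨t, x⟩ ⟨ht, _⟩
    exact hdt i x t ht
  · intro i j
    refine ((dX_contDiff j (hG i)).continuous.continuousOn (s := Set.Icc 0 T ×ˢ Set.univ)).congr ?_
    rintro ⟨t, x⟩ _
    exact congrFun (hpd i j t) x
  · intro t _ i j k
    rw [hpd i j t]
    exact hasPd k (dX_contDiff j (hG i)) t
  · intro i j k
    refine ((dX_contDiff k (dX_contDiff j (hG i))).continuous.continuousOn
      (s := Set.Icc 0 T ×ˢ Set.univ)).congr ?_
    rintro ⟨t, x⟩ _
    exact congrFun (hpd2 i j k t) x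
  · intro j
    simp only [hz]
    exact continuousOn_const
  · intro t ht x i
    rw [hdt i x t ht, hf, hnl, congrFun (hz i) x, (hasDerivAt_t (hG i) t x).deriv]
    ring

end Vale.Agent.P113.H772
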